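import Vale.Agent.P245.Local.Basics

/-!
# P245: Bochner's inequality for the generator of a regular log-concave measure
-/

open MeasureTheory Real Set Filter
open scoped RealInnerProductSpace ENNReal Topology ContDiff

noncomputable section

namespace Vale.Agent.P245.Local

variable {n : ℕ}

/-- Coordinate vector. -/
def ei (k : Fin n) : E n := EuclideanSpace.single k 1

/-- Partial derivative. -/
def pd (k : Fin n) (f : E n → ℝ) (x : E n) : ℝ := fderiv ℝ f x (ei k)

/-- Smooth functions of compact support. -/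
def Test (u : E n → ℝ) : Prop := ContDiff ℝ ∞ u ∧ HasCompactSupport u

theorem inner_ei (v : E n) (k : Fin n) : ⟪v, ei k⟫ = v k := by
  simp [ei, EuclideanSpace.inner_single_right]

theorem sum_clm_sq (l : E n →L[ℝ] ℝ) : ∑ k, l (ei k) ^ 2 = ‖l‖ ^ 2 := by
  obtain ⟨v, rfl⟩ := (InnerProductSpace.toDual ℝ (E n)).surjective l
  rw [LinearIsometryEquiv.norm_map, EuclideanSpace.norm_sq_eq]
  refine Finset.sum_congr rfl fun k _ => ?_
  rw [InnerProductSpace.toDual_apply_apply, inner_ei, Real.norm_eq_abs, sq_abs]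

theorem sum_pd_sq (f : E n → ℝ) (x : E n) : ∑ k, pd k f x ^ 2 = ‖fderiv ℝ f x‖ ^ 2 :=
  sum_clm_sq _

theorem contDiff_pd {f : E n → ℝ} {m : ℕ∞ω} (hf : ContDiff ℝ (m + 1) f) (k : Fin n) :
    ContDiff ℝ m (pd k f) := (hf.fderiv_right le_rfl).clm_apply contDiff_const

theorem continuous_pd {f : E n → ℝ} (hf : ContDiff ℝ 1 f) (k : Fin n) : Continuous (pd k f) :=
  (hf.continuous_fderiv one_ne_zero).clm_apply continuous_const

theorem hasCompactSupport_pd {f : E n → ℝ} (hf : HasCompactSupport f) (k : Fin n) :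
    HasCompactSupport (pd k f) := hf.fderiv_apply ℝ _

theorem Test.pd {u : E n → ℝ} (hu : Test u) (k : Fin n) : Test (Local.pd k u) :=
  ⟨contDiff_pd (hu.1.of_le (by simp)) k, hasCompactSupport_pd hu.2 k⟩

theorem Test.of_le {u : E n → ℝ} (hu : Test u) (m : ℕ) : ContDiff ℝ m u :=
  hu.1.of_le (by exact_mod_cast le_top)

theorem pd_mul {f g : E n → ℝ} {x : E n} (hf : DifferentiableAt ℝ f x)
    (hg : DifferentiableAt ℝ g x) (k : Fin n) :
    pd k (fun y => f y * g y) x = pd k f x * g x + f x * pd k g x := by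
  simp only [pd, fderiv_fun_mul hf hg, ContinuousLinearMap.add_apply,
    ContinuousLinearMap.smul_apply, smul_eq_mul]
  ring

theorem pd_sub {f g : E n → ℝ} {x : E n} (hf : DifferentiableAt ℝ f x)
    (hg : DifferentiableAt ℝ g x) (k : Fin n) :
    pd k (fun y => f y - g y) x = pd k f x - pd k g x := by
  simp [pd, fderiv_fun_sub hf hg]

theorem pd_sum {ι : Type*} (s : Finset ι) {F : ι → E n → ℝ} {x : E n}
    (hF : ∀ i ∈ s, DifferentiableAt ℝ (F i) x) (k : Fin n) :
    pd k (fun y => ∑ i ∈ s, F i y) x = ∑ i ∈ s, pd k (F i) x := by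
  simp [pd, fderiv_fun_sum hF]

theorem pd_pd {f : E n → ℝ} (hf : ContDiff ℝ 2 f) (j k : Fin n) (x : E n) :
    pd j (pd k f) x = hess f x (ei j) (ei k) := by
  have h : fderiv ℝ (fun y => fderiv ℝ f y (ei k)) x =
      (fderiv ℝ (fderiv ℝ f) x).flip (ei k) := by
    rw [fderiv_clm_apply ((hf.fderiv_right (m := 1) le_rfl).differentiable (by norm_num) x)
      (differentiableAt_const _)]
    simp
  unfold pd
  rw [h]
  rfl

theorem hess_symm {f : E n → ℝ} (hf : ContDiff ℝ 2 f) (x v w : E n) :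
    hess f x v w = hess f x w v :=
  (hf.contDiffAt.isSymmSndFDerivAt (by simp)).eq v w

theorem pd_comm {f : E n → ℝ} (hf : ContDiff ℝ 2 f) (j k : Fin n) (x : E n) :
    pd j (pd k f) x = pd k (pd j f) x := by
  rw [pd_pd hf, pd_pd hf, hess_symm hf]

/-- Integration by parts in one coordinate. -/
theorem integral_mul_pd {f w : E n → ℝ} (hf : ContDiff ℝ 1 f) (hw : ContDiff ℝ 1 w)
    (hwc : HasCompactSupport w) (k : Fin n) :
    ∫ x, f x * pd k w x = -∫ x, pd k f x * w x :=
  integral_mul_fderiv_eq_neg_fderiv_mul_of_integrable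
    (((continuous_pd hf k).mul hw.continuous).integrable_of_hasCompactSupport hwc.mul_left)
    ((hf.continuous.mul (continuous_pd hw k)).integrable_of_hasCompactSupport
      (hasCompactSupport_pd hwc k).mul_left)
    ((hf.continuous.mul hw.continuous).integrable_of_hasCompactSupport hwc.mul_left)
    (fun x _ => hf.differentiable one_ne_zero x) (fun x _ => hw.differentiable one_ne_zero x)

/-- Cauchy-Schwarz. -/
theorem sq_integral_mul_le {α : Type*} [MeasurableSpace α] {ν : Measure α} {a b : α → ℝ}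
    (ha : Integrable (fun x => a x ^ 2) ν) (hb : Integrable (fun x => b x ^ 2) ν)
    (hab : Integrable (fun x => a x * b x) ν) :
    (∫ x, a x * b x ∂ν) ^ 2 ≤ (∫ x, a x ^ 2 ∂ν) * ∫ x, b x ^ 2 ∂ν := by
  have h : ∀ s : ℝ, 0 ≤ (∫ x, b x ^ 2 ∂ν) * (s * s) + 2 * (∫ x, a x * b x ∂ν) * s +
      ∫ x, a x ^ 2 ∂ν := by
    intro s
    have h1 : 0 ≤ ∫ x, (s * b x + a x) ^ 2 ∂ν := integral_nonneg fun x => sq_nonneg _
    have e : ∀ x, (s * b x + a x) ^ 2 = s * s * b x ^ 2 + 2 * s * (a x * b x) + a x ^ 2 :=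
      fun x => by ring
    simp only [e] at h1
    have i1 : Integrable (fun x => s * s * b x ^ 2 + 2 * s * (a x * b x)) ν :=
      (hb.const_mul _).add (hab.const_mul _)
    rw [integral_add i1 ha, integral_add (hb.const_mul _) (hab.const_mul _), integral_const_mul,
      integral_const_mul] at h1
    linarith
  have := discrim_le_zero h
  rw [discrim] at this
  linarith

namespace Base

variable (B : Base n)

/-- The generator of the Langevin semigroup. -/
def gen (u : E n → ℝ) (x : E n) : ℝ := ∑ k, (pd k (pd k u) x - pd k B.V x * pd k u x)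

theorem contDiff_pd_V (k : Fin n) : ContDiff ℝ 1 (pd k B.V) :=
  contDiff_pd (B.smooth.of_le (le_of_eq one_add_one_eq_two)) k

theorem contDiff_rho : ContDiff ℝ 2 B.rho := B.smooth.neg.exp

theorem pd_rho (k : Fin n) (x : E n) : pd k B.rho x = -(pd k B.V x * B.rho x) := by
  have h : HasFDerivAt B.rho (B.rho x • -fderiv ℝ B.V x) x :=
    ((B.smooth.differentiable (by norm_num) x).hasFDerivAt.neg).exp
  simp [pd, h.fderiv, mul_comm]

theorem contDiff_gen {u : E n → ℝ} (hu : Test u) : ContDiff ℝ 1 (B.gen u) :=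
  ContDiff.sum fun k _ => (((hu.pd k).pd k).of_le 1).sub
    ((B.contDiff_pd_V k).mul ((hu.pd k).of_le 1))

theorem hasCompactSupport_gen {u : E n → ℝ} (hu : Test u) : HasCompactSupport (B.gen u) := by
  refine HasCompactSupport.intro hu.2 fun x hx => Finset.sum_eq_zero fun k _ => ?_
  have h1 : pd k u x = 0 := by rw [pd, fderiv_of_notMem_tsupport ℝ hx]; rfl
  have h2 : pd k (pd k u) x = 0 := by
    have hx' : x ∉ tsupport (pd k u) := fun h =>
      hx (tsupport_fderiv_apply_subset ℝ (ei k) h)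
    rw [pd, fderiv_of_notMem_tsupport ℝ hx']; rfl
  rw [h1, h2]; ring

theorem integrable_cc {g : E n → ℝ} (hg : Continuous g) (hc : HasCompactSupport g) :
    Integrable g B.μ := hg.integrable_of_hasCompactSupport hc

/-- Integration by parts for the generator. -/
theorem integral_mul_gen {f u : E n → ℝ} (hf : ContDiff ℝ 1 f) (hu : Test u) :
    ∫ x, f x * B.gen u x ∂B.μ = -∑ k, ∫ x, pd k f x * pd k u x ∂B.μ := by
  have hw : ∀ k : Fin n, ContDiff ℝ 1 (fun x => pd k u x * B.rho x) := fun k =>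
    ((hu.pd k).of_le 1).mul (B.contDiff_rho.of_le (by norm_num))
  have hwc : ∀ k : Fin n, HasCompactSupport (fun x => pd k u x * B.rho x) := fun k =>
    (hu.pd k).2.mul_right
  have e : ∀ x, B.rho x * (f x * B.gen u x) =
      ∑ k, f x * pd k (fun y => pd k u y * B.rho y) x := by
    intro x
    rw [gen, Finset.mul_sum, Finset.mul_sum]
    refine Finset.sum_congr rfl fun k _ => ?_
    rw [pd_mul (((hu.pd k).of_le 1).differentiable one_ne_zero x)
      (B.contDiff_rho.differentiable (by norm_num) x), pd_rho]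
    ring
  have hi : ∀ k : Fin n, Integrable fun x => f x * pd k (fun y => pd k u y * B.rho y) x := fun k =>
    (hf.continuous.mul (continuous_pd (hw k) k)).integrable_of_hasCompactSupport
      (hasCompactSupport_pd (hwc k) k).mul_left
  rw [B.integral_μ, integral_congr_ae (.of_forall e), integral_finsetSum _ fun k _ => hi k,
    ← Finset.sum_neg_distrib]
  refine Finset.sum_congr rfl fun k _ => ?_
  rw [integral_mul_pd hf (hw k) (hwc k) k, B.integral_μ]
  congr 1
  exact integral_congr_ae (.of_forall fun x => by ring)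

theorem integral_gen {u : E n → ℝ} (hu : Test u) : ∫ x, B.gen u x ∂B.μ = 0 := by
  have := B.integral_mul_gen (f := fun _ => 1) contDiff_const hu
  simpa [pd] using this

/-- Squared norm of the generator. -/
def sizeL (u : E n → ℝ) : ℝ := ∫ x, B.gen u x ^ 2 ∂B.μ

/-- Squared norm of the gradient. -/
def sizeD (u : E n → ℝ) : ℝ := ∑ k, ∫ x, pd k u x ^ 2 ∂B.μ

/-- Squared norm of the second derivatives. -/
def sizeH (u : E n → ℝ) : ℝ := ∑ k, ∑ j, ∫ x, pd j (pd k u) x ^ 2 ∂B.μ

theorem pd_gen {u : E n → ℝ} (hu : Test u) (k : Fin n) (x : E n) :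
    pd k (B.gen u) x = B.gen (pd k u) x - ∑ j, hess B.V x (ei k) (ei j) * pd j u x := by
  have d1 : ∀ j : Fin n, DifferentiableAt ℝ (pd j (pd j u)) x := fun j =>
    (((hu.pd j).pd j).of_le 1).differentiable one_ne_zero x
  have d2 : ∀ j : Fin n, DifferentiableAt ℝ (pd j u) x := fun j =>
    ((hu.pd j).of_le 1).differentiable one_ne_zero x
  have d3 : ∀ j : Fin n, DifferentiableAt ℝ (pd j B.V) x := fun j =>
    (B.contDiff_pd_V j).differentiable one_ne_zero x
  show pd k (fun y => ∑ j, (pd j (pd j u) y - pd j B.V y * pd j u y)) x = _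
  have d4 : ∀ j : Fin n,
      DifferentiableAt ℝ (fun y => pd j (pd j u) y - pd j B.V y * pd j u y) x := fun j =>
    (d1 j).sub ((d3 j).mul (d2 j))
  rw [pd_sum _ fun j _ => d4 j, gen, ← Finset.sum_sub_distrib]
  refine Finset.sum_congr rfl fun j _ => ?_
  rw [pd_sub (g := fun y => pd j B.V y * pd j u y) (d1 j) ((d3 j).mul (d2 j)),
    pd_mul (d3 j) (d2 j), pd_pd B.smooth k j, pd_comm ((hu.pd j).of_le 2) k j,
    show pd k (pd j u) = pd j (pd k u) from funext fun y => pd_comm (hu.of_le 2) k j y]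
  ring

theorem sum_hess (a : Fin n → ℝ) (x : E n) :
    ∑ k, ∑ j, hess B.V x (ei k) (ei j) * a j * a k =
      hess B.V x (∑ k, a k • ei k) (∑ k, a k • ei k) := by
  simp only [hess, map_sum, map_smul, FunLike.coe_sum, Finset.sum_apply,
    ContinuousLinearMap.smul_apply, smul_eq_mul]
  simp only [Finset.mul_sum]
  rw [Finset.sum_comm]
  exact Finset.sum_congr rfl fun _ _ => Finset.sum_congr rfl fun _ _ => by ring

theorem norm_sq_sum_ei (a : Fin n → ℝ) : ‖∑ k, a k • ei k‖ ^ 2 = ∑ k, a k ^ 2 := by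
  have h : ∀ i, (∑ k, a k • ei k) i = a i := fun i => by
    simp [ei, WithLp.ofLp_sum, Finset.sum_apply, Pi.single_apply]
  rw [EuclideanSpace.norm_sq_eq]
  simp [h]

/-- Bochner's inequality. -/
theorem bochner {t : ℝ} (hs : B.Strong t) {u : E n → ℝ} (hu : Test u) :
    B.sizeH u + t * B.sizeD u ≤ B.sizeL u := by
  have hG := B.contDiff_gen hu
  have hpc : ∀ k : Fin n, Continuous (pd k u) := fun k => ((hu.pd k).of_le 1).continuous
  have hgc : ∀ k : Fin n, Continuous (B.gen (pd k u)) := fun k =>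
    (B.contDiff_gen (hu.pd k)).continuous
  have hHc : ∀ k j : Fin n, Continuous fun x => hess B.V x (ei k) (ei j) := fun k j => by
    simpa only [← pd_pd B.smooth] using continuous_pd (B.contDiff_pd_V j) k
  have i1 : ∀ k : Fin n, Integrable (fun x => pd k u x * B.gen (pd k u) x) B.μ := fun k =>
    B.integrable_cc ((hpc k).mul (hgc k)) (hu.pd k).2.mul_right
  have i2 : ∀ k j : Fin n,
      Integrable (fun x => hess B.V x (ei k) (ei j) * pd j u x * pd k u x) B.μ := fun k j =>
    B.integrable_cc (((hHc k j).mul (hpc j)).mul (hpc k)) (hu.pd k).2.mul_left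
  have i3 : ∀ k : Fin n, Integrable (fun x => pd k u x ^ 2) B.μ := fun k =>
    B.integrable_cc ((hpc k).pow 2) ((hu.pd k).2.comp_left (g := fun r : ℝ => r ^ 2) (by norm_num))
  have e1 : B.sizeL u = -∑ k, ∫ x, pd k (B.gen u) x * pd k u x ∂B.μ := by
    rw [← B.integral_mul_gen hG hu, sizeL]
    exact integral_congr_ae (.of_forall fun x => sq _)
  have e2 : ∀ k : Fin n, ∫ x, pd k (B.gen u) x * pd k u x ∂B.μ =
      -(∑ j, ∫ x, pd j (pd k u) x ^ 2 ∂B.μ) -
        ∫ x, ∑ j, hess B.V x (ei k) (ei j) * pd j u x * pd k u x ∂B.μ := by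
    intro k
    have := B.integral_mul_gen ((hu.pd k).of_le 1) (hu.pd k)
    simp only [← sq] at this
    rw [← this, ← integral_sub (i1 k) (integrable_finsetSum _ fun j _ => i2 k j)]
    refine integral_congr_ae (.of_forall fun x => ?_)
    simp only [B.pd_gen hu, sub_mul, Finset.sum_mul]
    ring
  have e3 : t * B.sizeD u ≤
      ∑ k, ∫ x, ∑ j, hess B.V x (ei k) (ei j) * pd j u x * pd k u x ∂B.μ := by
    rw [sizeD, ← integral_finsetSum _ fun k _ => i3 k,
      ← integral_finsetSum _ fun k _ => integrable_finsetSum _ fun j _ => i2 k j,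
      ← integral_const_mul]
    refine integral_mono ((integrable_finsetSum _ fun k _ => i3 k).const_mul t)
      (integrable_finsetSum _ fun k _ => integrable_finsetSum _ fun j _ => i2 k j) fun x => ?_
    simp only
    rw [B.sum_hess (fun k => pd k u x) x, ← norm_sq_sum_ei]
    exact hs x _
  rw [e1, sizeH]
  simp only [e2, Finset.sum_sub_distrib, Finset.sum_neg_distrib]
  linarith

/-- The mean of the gradient is controlled by the generator. -/
theorem sum_mean_sq_le {R : ℝ} (hR : 0 ≤ R)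
    (hcov : ∀ v : E n, ∫ x, (⟪v, x⟫ - ∫ y, ⟪v, y⟫ ∂B.μ) ^ 2 ∂B.μ ≤ R * ‖v‖ ^ 2)
    {u : E n → ℝ} (hu : Test u) :
    ∑ k, (∫ x, pd k u x ∂B.μ) ^ 2 ≤ R * B.sizeL u := by
  set w : Fin n → ℝ := fun k => ∫ x, pd k u x ∂B.μ with hw
  set v : E n := ∑ k, w k • ei k with hv
  set m := ∫ y, ⟪v, y⟫ ∂B.μ
  have hfc : ContDiff ℝ 1 fun x : E n => ⟪v, x⟫ - m := (innerSL ℝ v).contDiff.sub contDiff_const
  have hvk : ∀ k, v k = w k := fun k => by
    simp [hv, ei, WithLp.ofLp_sum, Finset.sum_apply, Pi.single_apply]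
  have hp : ∀ k x, pd k (fun x : E n => ⟪v, x⟫ - m) x = w k := fun k x => by
    have hd : HasFDerivAt (fun x : E n => ⟪v, x⟫ - m) (innerSL ℝ v) x :=
      (innerSL ℝ v).hasFDerivAt.sub_const m
    rw [pd, hd.fderiv, innerSL_apply_apply, inner_ei, hvk]
  have h1 : ∫ x, (⟪v, x⟫ - m) * B.gen u x ∂B.μ = -∑ k, w k ^ 2 := by
    rw [B.integral_mul_gen hfc hu]
    simp only [hp, integral_const_mul, sq, hw]
  have hgc := (B.contDiff_gen hu).continuous
  have hint : Integrable (fun x => (⟪v, x⟫ - m) ^ 2) B.μ :=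
    B.integrable_of_growth (hfc.continuous.pow 2).aestronglyMeasurable
      ((expGrowth_inner v).sub (expGrowth_const m)).sq
  have h2 := sq_integral_mul_le (ν := B.μ) hint
    (B.integrable_cc (hgc.pow 2)
      ((B.hasCompactSupport_gen hu).comp_left (g := fun r : ℝ => r ^ 2) (by norm_num)))
    (B.integrable_cc (hfc.continuous.mul hgc) (B.hasCompactSupport_gen hu).mul_left)
  rw [h1, neg_sq] at h2
  have h3 := hcov v
  rw [hv, norm_sq_sum_ei, ← hv] at h3
  have hS : 0 ≤ B.sizeL u := integral_nonneg fun x => sq_nonneg _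
  have hW : 0 ≤ ∑ k, w k ^ 2 := Finset.sum_nonneg fun k _ => sq_nonneg _
  have h4 : (∑ k, w k ^ 2) ^ 2 ≤ (R * ∑ k, w k ^ 2) * B.sizeL u :=
    h2.trans (mul_le_mul_of_nonneg_right h3 hS)
  rcases hW.eq_or_lt with h | h
  · rw [← h]; positivity
  · nlinarith

end Base

end Vale.Agent.P245.Local
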