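import Vale.Agent.P245.Local.Lich.Mollify

/-!
# P245: the range of the generator is dense

A square integrable function orthogonal to the range of the generator is a weak solution of the
stationary equation; mollifying it and testing against cut-offs shows that it is constant.
-/

open MeasureTheory Real Set Filter Metric
open scoped RealInnerProductSpace ENNReal Topology ContDiff

noncomputable section

namespace Vale.Agent.P245.Local

variable {n : ℕ}

theorem norm_ei (k : Fin n) : ‖(ei k : E n)‖ = 1 := by simp [ei]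

theorem pd_subLeft {f : E n → ℝ} (hf : ContDiff ℝ 1 f) (k : Fin n) (x y : E n) :
    pd k (fun z => f (x - z)) y = -pd k f (x - y) := by
  have h : HasFDerivAt (fun z => f (x - z)) ((fderiv ℝ f (x - y)).comp
      (-ContinuousLinearMap.id ℝ (E n))) y :=
    (hf.differentiable one_ne_zero (x - y)).hasFDerivAt.comp y ((hasFDerivAt_id y).const_sub x)
  simp [pd, h.fderiv]

theorem locallyIntegrable_mul {f c : E n → ℝ} (hf : Integrable f) (hc : Continuous c) :
    LocallyIntegrable fun x => f x * c x :=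
  locallyIntegrable_iff.2 fun _ hK => hf.integrableOn.mul_continuousOn hc.continuousOn hK

namespace Base

variable (B : Base n)

theorem pd_V_lipschitz : ∃ M : ℝ, 0 ≤ M ∧ ∀ (k : Fin n) (x y : E n),
    |pd k B.V x - pd k B.V y| ≤ M * ‖x - y‖ := by
  obtain ⟨M, hM0, hM⟩ := B.hessBound_nonneg
  have hop : ∀ x, ‖fderiv ℝ (fderiv ℝ B.V) x‖ ≤ M := fun x => by
    refine ContinuousLinearMap.opNorm_le_bound₂ _ hM0 fun v w => ?_
    show ‖hess B.V x v w‖ ≤ _
    have h : ∀ s : ℝ, 0 ≤ hess B.V x w w * (s * s) + 2 * hess B.V x v w * s + hess B.V x v v := by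
      intro s
      have h1 := B.hess_nonneg x (v + s • w)
      have h2 := hess_symm B.smooth x w v
      simp only [hess, map_add, map_smul, add_apply, smul_apply, smul_eq_mul] at h1 h2 ⊢
      rw [h2] at h1
      linarith
    have h3 := discrim_le_zero h
    rw [discrim] at h3
    have h4 : hess B.V x v w ^ 2 ≤ (M * ‖v‖ * ‖w‖) ^ 2 := by
      nlinarith [mul_le_mul (hM x v) (hM x w) (B.hess_nonneg x w)
        (mul_nonneg hM0 (sq_nonneg ‖v‖))]
    rw [Real.norm_eq_abs]
    exact abs_le_of_sq_le_sq h4 (by positivity)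
  refine ⟨M, hM0, fun k x y => ?_⟩
  have h1 : ‖fderiv ℝ B.V x - fderiv ℝ B.V y‖ ≤ M * ‖x - y‖ :=
    Convex.norm_image_sub_le_of_norm_fderiv_le
      (fun z _ => (B.smooth.fderiv_right (m := 1) le_rfl).differentiable (by norm_num) z)
      (fun z _ => hop z) convex_univ (mem_univ y) (mem_univ x)
  have h2 := (fderiv ℝ B.V x - fderiv ℝ B.V y).le_opNorm (ei k)
  rw [norm_ei, mul_one, sub_apply, Real.norm_eq_abs] at h2
  exact h2.trans h1

theorem rho_ratio {r : ℝ} (hr : 0 ≤ r) : ∃ ε₀ : ℝ, 0 < ε₀ ∧ ∀ x y : E n,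
    ‖x‖ ≤ r → ‖x - y‖ < ε₀ → B.rho y ≤ 2 * B.rho x := by
  have hK := isCompact_closedBall (0 : E n) (r + 1)
  obtain ⟨z, -, hz⟩ := hK.exists_isMinOn ⟨0, by simp; linarith⟩ B.continuous_rho.continuousOn
  obtain ⟨ε, hε, hu⟩ := Metric.uniformContinuousOn_iff.1
    (hK.uniformContinuousOn_of_continuous B.continuous_rho.continuousOn) _ (B.rho_pos z)
  refine ⟨min ε 1, lt_min hε one_pos, fun x y hx hxy => ?_⟩
  have hxK : x ∈ closedBall (0 : E n) (r + 1) := by simp; linarith
  have hyK : y ∈ closedBall (0 : E n) (r + 1) := by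
    simp only [mem_closedBall_zero_iff]
    have := norm_sub_norm_le y x
    rw [norm_sub_rev] at this
    linarith [hxy.trans_le (min_le_right ε 1)]
  have h1 := hu x hxK y hyK (by rw [dist_eq_norm]; exact hxy.trans_le (min_le_left _ _))
  rw [Real.dist_eq] at h1
  have h2 : B.rho z ≤ B.rho x := hz hxK
  linarith [(abs_lt.1 h1).1]

/-- A square integrable function orthogonal to the range of the generator. -/
structure Orth (h : E n → ℝ) : Prop where
  meas : AEStronglyMeasurable h B.μ
  sq_int : Integrable (fun x => h x ^ 2) B.μ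
  orth : ∀ u, Test u → ∫ x, h x * B.gen u x ∂B.μ = 0

variable {B} {h : E n → ℝ}

theorem Orth.int_g (ho : B.Orth h) : Integrable fun x => h x * B.rho x := by
  have h1 : Integrable h B.μ := by
    refine ((integrable_const (1 : ℝ)).add ho.sq_int).mono' ho.meas (.of_forall fun x => ?_)
    simp only [Pi.add_apply, Real.norm_eq_abs]
    nlinarith [sq_abs (h x), sq_nonneg (|h x| - 1)]
  simpa [mul_comm] using B.integrable_μ_iff.1 h1

theorem Orth.int_q (ho : B.Orth h) : Integrable fun x => h x ^ 2 * B.rho x := by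
  simpa [mul_comm] using B.integrable_μ_iff.1 ho.sq_int

theorem Orth.locInt (ho : B.Orth h) : LocallyIntegrable h := by
  have := locallyIntegrable_mul ho.int_g (continuous_exp.comp B.continuous_V)
  refine this.congr (.of_forall fun x => ?_)
  simp only [Function.comp, rho, mul_assoc, ← exp_add, neg_add_cancel, exp_zero, mul_one]

/-- The weighted square of a mollification. -/
theorem Orth.weight (ho : B.Orth h) {r ε : ℝ} {φ : E n → ℝ} (hφ : Moll ε φ)
    (hε : ∀ x y : E n, ‖x‖ ≤ r → ‖x - y‖ < ε → B.rho y ≤ 2 * B.rho x) {x : E n} (hx : ‖x‖ ≤ r) :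
    conv (fun y => |h y * B.rho y|) φ x ^ 2 ≤
      2 * B.rho x * conv (fun y => h y ^ 2 * B.rho y) φ x := by
  have hc := hφ.test.1.continuous
  have hsq : ∀ y, √(B.rho y * φ (x - y)) ^ 2 = B.rho y * φ (x - y) := fun y =>
    sq_sqrt (mul_nonneg (B.rho_pos y).le (hφ.nonneg _))
  have e1 : ∀ y, (|h y| * √(B.rho y * φ (x - y))) ^ 2 = h y ^ 2 * B.rho y * φ (x - y) := fun y => by
    rw [mul_pow, hsq, sq_abs]; ring
  have e2 : ∀ y, |h y| * √(B.rho y * φ (x - y)) * √(B.rho y * φ (x - y)) =
      |h y * B.rho y| * φ (x - y) := fun y => by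
    rw [mul_assoc, ← sq, hsq, abs_mul, abs_of_pos (B.rho_pos y)]; ring
  have i3 := integrable_conv_term B.integrable_rho.locallyIntegrable hc hφ.test.2 x
  have h1 := sq_integral_mul_le (ν := (volume : Measure (E n)))
    (a := fun y => |h y| * √(B.rho y * φ (x - y))) (b := fun y => √(B.rho y * φ (x - y)))
    (by simpa only [e1] using integrable_conv_term ho.int_q.locallyIntegrable hc hφ.test.2 x)
    (by simpa only [hsq] using i3)
    (by simpa only [e2] using integrable_conv_term ho.int_g.abs.locallyIntegrable hc hφ.test.2 x)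
  simp only [e1, e2, hsq] at h1
  have h2 : ∫ y, B.rho y * φ (x - y) ≤ 2 * B.rho x := by
    calc _ ≤ ∫ y, 2 * B.rho x * φ (x - y) := by
          refine integral_mono i3 (((hc.integrable_of_hasCompactSupport hφ.test.2).comp_sub_left
            x).const_mul _) fun y => ?_
          rcases eq_or_ne (φ (x - y)) 0 with h0 | h0
          · simp [h0]
          · exact mul_le_mul_of_nonneg_right (hε x y hx (hφ.small _ h0)) (hφ.nonneg _)
      _ = _ := by rw [integral_const_mul, integral_sub_left_eq_self φ volume x, hφ.total, mul_one]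
  refine h1.trans ((mul_le_mul_of_nonneg_left h2 (integral_nonneg fun y => ?_)).trans_eq ?_)
  · exact mul_nonneg (mul_nonneg (sq_nonneg _) (B.rho_pos y).le) (hφ.nonneg _)
  · exact mul_comm _ _

/-- The flux of a mollified solution. -/
def flux (B : Base n) (h φ : E n → ℝ) (k : Fin n) (x : E n) : ℝ :=
  pd k (conv (fun y => h y * B.rho y) φ) x + conv (fun y => h y * B.rho y * pd k B.V y) φ x

theorem Orth.li_V (ho : B.Orth h) (k : Fin n) :
    LocallyIntegrable fun y => h y * B.rho y * pd k B.V y :=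
  locallyIntegrable_mul ho.int_g (B.contDiff_pd_V k).continuous

theorem Orth.contDiff_flux (ho : B.Orth h) {φ : E n → ℝ} (hφ : Test φ) (k : Fin n) :
    ContDiff ℝ ∞ (B.flux h φ k) :=
  (contDiff_pd ((contDiff_conv ho.int_g.locallyIntegrable hφ).of_le (by simp)) k).add
    (contDiff_conv (ho.li_V k) hφ)

/-- The mollified equation holds pointwise. -/
theorem Orth.div_flux (ho : B.Orth h) {φ : E n → ℝ} (hφ : Test φ) (x : E n) :
    ∑ k, pd k (B.flux h φ k) x = 0 := by
  have hg := ho.int_g.locallyIntegrable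
  have e1 : ∀ k, pd k (B.flux h φ k) x = conv (fun y => h y * B.rho y) (pd k (pd k φ)) x +
      conv (fun y => h y * B.rho y * pd k B.V y) (pd k φ) x := by
    intro k
    have d1 : DifferentiableAt ℝ (pd k (conv (fun y => h y * B.rho y) φ)) x :=
      ((contDiff_pd (m := ∞) ((contDiff_conv hg hφ).of_le (by simp)) k)).differentiable (by simp) x
    have d2 : DifferentiableAt ℝ (conv (fun y => h y * B.rho y * pd k B.V y) φ) x :=
      (contDiff_conv (ho.li_V k) hφ).differentiable (by simp) x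
    have : pd k (B.flux h φ k) x = pd k (pd k (conv (fun y => h y * B.rho y) φ)) x +
        pd k (conv (fun y => h y * B.rho y * pd k B.V y) φ) x := by
      change fderiv ℝ (fun z => pd k (conv (fun y => h y * B.rho y) φ) z +
        conv (fun y => h y * B.rho y * pd k B.V y) φ z) x (ei k) = _
      rw [fderiv_fun_add d1 d2]
      rfl
    rw [this, show pd k (conv (fun y => h y * B.rho y) φ) = conv (fun y => h y * B.rho y) (pd k φ)
      from funext fun z => pd_conv hg hφ k z, pd_conv hg (hφ.pd k), pd_conv (ho.li_V k) hφ]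
  have hψ : Test fun y => φ (x - y) :=
    ⟨hφ.1.comp (contDiff_const.sub contDiff_id), hφ.2.comp_homeomorph (Homeomorph.subLeft x)⟩
  have e2 : ∀ y, B.gen (fun z => φ (x - z)) y =
      ∑ k, (pd k (pd k φ) (x - y) + pd k B.V y * pd k φ (x - y)) := by
    intro y
    refine Finset.sum_congr rfl fun k _ => ?_
    have p1 : pd k (fun z => φ (x - z)) = fun z => (-1) * pd k φ (x - z) :=
      funext fun z => by rw [pd_subLeft (hφ.of_le 1)]; ring
    have hd : DifferentiableAt ℝ (fun z => pd k φ (x - z)) y :=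
      (((hφ.pd k).of_le 1).comp (contDiff_const.sub contDiff_id)).differentiable one_ne_zero y
    rw [p1, pd_mul (differentiableAt_const _) hd, pd_subLeft ((hφ.pd k).of_le 1)]
    simp [pd]
  have h0 := ho.orth _ hψ
  rw [B.integral_μ] at h0
  have i1 : ∀ k : Fin n, Integrable fun y => h y * B.rho y * pd k (pd k φ) (x - y) := fun k =>
    integrable_conv_term hg ((hφ.pd k).pd k).1.continuous ((hφ.pd k).pd k).2 x
  have i2 : ∀ k : Fin n, Integrable fun y => h y * B.rho y * pd k B.V y * pd k φ (x - y) := fun k =>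
    integrable_conv_term (ho.li_V k) (hφ.pd k).1.continuous (hφ.pd k).2 x
  simp only [e1, conv]
  simp only [← integral_add (i1 _) (i2 _)]
  rw [← integral_finsetSum _ fun k _ => (i1 k).fun_add (i2 k), ← h0]
  refine integral_congr_ae (.of_forall fun y => ?_)
  simp only [e2, Finset.mul_sum]
  exact Finset.sum_congr rfl fun k _ => by ring

theorem pointwise_energy {ρ χ c a p R : ℝ} (hρ : 0 < ρ) :
    χ ^ 2 * ρ * p ^ 2 / 2 ≤ (χ ^ 2 * p + 2 * χ * c * a) * (ρ * p + R) +
      5 * (ρ * a ^ 2) * c ^ 2 + 2 * χ ^ 2 * (R ^ 2 / ρ) := by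
  have key : (χ ^ 2 * p + 2 * χ * c * a) * (ρ * p + R) + 5 * (ρ * a ^ 2) * c ^ 2 +
      2 * χ ^ 2 * (R ^ 2 / ρ) - χ ^ 2 * ρ * p ^ 2 / 2 =
      ((χ * ρ * p / 2 + χ * R) ^ 2 + (χ * ρ * p / 2 + 2 * ρ * c * a) ^ 2
        + (χ * R + ρ * c * a) ^ 2) / ρ := by
    field_simp; ring
  have : 0 ≤ ((χ * ρ * p / 2 + χ * R) ^ 2 + (χ * ρ * p / 2 + 2 * ρ * c * a) ^ 2
        + (χ * R + ρ * c * a) ^ 2) / ρ := by positivity
  linarith

theorem energy_sum {m : ℕ} {ρ χ a Q K L : ℝ} {c p R : Fin m → ℝ} (hρ : 0 < ρ) (hQ : 0 ≤ Q)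
    (hχ : |χ| ≤ 1) (ha : ρ * a ^ 2 ≤ 2 * Q) (hR : ∀ k, R k ^ 2 / ρ ≤ K ^ 2 * (2 * Q))
    (hc : ∑ k, c k ^ 2 ≤ L ^ 2) :
    χ ^ 2 * ρ * ∑ k, p k ^ 2 ≤
      2 * (∑ k, (χ ^ 2 * p k + 2 * χ * c k * a) * (ρ * p k + R k)) +
        (20 * L ^ 2 + 8 * m * K ^ 2) * Q := by
  have hs := Finset.sum_le_sum fun k (_ : k ∈ Finset.univ) =>
    pointwise_energy (χ := χ) (c := c k) (a := a) (p := p k) (R := R k) hρ
  simp only [Finset.sum_add_distrib, ← Finset.mul_sum, ← Finset.sum_div] at hs
  have h5 : ∑ k, R k ^ 2 / ρ ≤ m * (K ^ 2 * (2 * Q)) :=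
    (Finset.sum_le_sum fun k _ => hR k).trans_eq (by
      rw [Finset.sum_const, Finset.card_univ, Fintype.card_fin, nsmul_eq_mul])
  rw [← Finset.sum_div] at h5
  have h6 : χ ^ 2 ≤ 1 := by rw [← sq_abs]; exact pow_le_one₀ (abs_nonneg _) hχ
  have h7 : 0 ≤ (∑ k, R k ^ 2) / ρ :=
    div_nonneg (Finset.sum_nonneg fun k _ => sq_nonneg _) hρ.le
  have h8 := mul_le_mul h6 h5 h7 zero_le_one
  have h9 := mul_le_mul ha hc (Finset.sum_nonneg fun k _ => sq_nonneg _) (by linarith)
  linarith

/-- The commutator of mollification and multiplication by the drift. -/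
theorem Orth.commutator_le (ho : B.Orth h) {M : ℝ} (hM0 : 0 ≤ M)
    (hM : ∀ (k : Fin n) (x y : E n), |pd k B.V x - pd k B.V y| ≤ M * ‖x - y‖)
    {ε : ℝ} {φ : E n → ℝ} (hφ : Moll ε φ) (k : Fin n) (x : E n) :
    |conv (fun y => h y * B.rho y * pd k B.V y) φ x -
        pd k B.V x * conv (fun y => h y * B.rho y) φ x| ≤
      M * ε * conv (fun y => |h y * B.rho y|) φ x := by
  have i1 := integrable_conv_term (ho.li_V k) hφ.test.1.continuous hφ.test.2 x
  have i2 := integrable_conv_term ho.int_g.locallyIntegrable hφ.test.1.continuous hφ.test.2 x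
  simp only [conv, ← integral_const_mul]
  rw [← integral_sub i1 (i2.const_mul _)]
  refine abs_integral_le_integral_abs.trans ?_
  refine integral_mono (i1.sub (i2.const_mul _)).abs
    ((integrable_conv_term ho.int_g.abs.locallyIntegrable hφ.test.1.continuous hφ.test.2
      x).const_mul _) fun y => ?_
  simp only []
  rw [show h y * B.rho y * pd k B.V y * φ (x - y) - pd k B.V x * (h y * B.rho y * φ (x - y)) =
    (pd k B.V y - pd k B.V x) * (h y * B.rho y) * φ (x - y) by ring, abs_mul, abs_mul,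
    abs_of_nonneg (hφ.nonneg _), ← mul_assoc (M * ε)]
  rcases eq_or_ne (φ (x - y)) 0 with h0 | h0
  · simp [h0]
  refine mul_le_mul_of_nonneg_right (mul_le_mul_of_nonneg_right ((hM k y x).trans ?_)
    (abs_nonneg _)) (hφ.nonneg _)
  rw [norm_sub_rev]
  exact mul_le_mul_of_nonneg_left (hφ.small _ h0).le hM0

/-- The flux is divergence free in the weak sense. -/
theorem Orth.integral_flux (ho : B.Orth h) {φ η : E n → ℝ} (hφ : Test φ) (hη : ContDiff ℝ 1 η)
    (hηc : HasCompactSupport η) :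
    (∀ k, Integrable fun x => pd k η x * B.flux h φ k x) ∧
      ∫ x, ∑ k, pd k η x * B.flux h φ k x = 0 := by
  have hF : ∀ k, ContDiff ℝ 1 (B.flux h φ k) := fun k =>
    (ho.contDiff_flux hφ k).of_le (by simp)
  have iF : ∀ k, Integrable fun x => pd k η x * B.flux h φ k x := fun k =>
    ((continuous_pd hη k).mul (hF k).continuous).integrable_of_hasCompactSupport
      (hasCompactSupport_pd hηc k).mul_right
  refine ⟨iF, ?_⟩
  rw [integral_finsetSum _ fun k _ => iF k]
  have e : ∀ k, ∫ x, pd k η x * B.flux h φ k x = -∫ x, η x * pd k (B.flux h φ k) x := by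
    intro k
    have h1 := integral_mul_pd (hF k) hη hηc k
    rw [show (fun x => pd k η x * B.flux h φ k x) = fun x => B.flux h φ k x * pd k η x from
      funext fun x => mul_comm _ _, h1]
    congr 1
    exact integral_congr_ae (.of_forall fun x => mul_comm _ _)
  have i4 : ∀ k, Integrable fun x => η x * pd k (B.flux h φ k) x := fun k =>
    (hη.continuous.mul (continuous_pd (hF k) k)).integrable_of_hasCompactSupport hηc.mul_right
  simp only [e, Finset.sum_neg_distrib]
  rw [← integral_finsetSum _ fun k _ => i4 k]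
  simp [← Finset.mul_sum, ho.div_flux hφ]

/-- The energy of a mollified solution on a ball. -/
theorem Orth.energy (ho : B.Orth h) {M : ℝ} (hM0 : 0 ≤ M)
    (hM : ∀ (k : Fin n) (x y : E n), |pd k B.V x - pd k B.V y| ≤ M * ‖x - y‖)
    {r ε L : ℝ} (hε0 : 0 ≤ ε) {φ : E n → ℝ} (hφ : Moll ε φ)
    (hε : ∀ x y : E n, ‖x‖ ≤ r → ‖x - y‖ < ε → B.rho y ≤ 2 * B.rho x)
    {χ : E n → ℝ} (hχ : Test χ) (hχ1 : ∀ x, |χ x| ≤ 1) (hχd : ∀ x, ‖fderiv ℝ χ x‖ ≤ L)
    (hχs : ∀ x ∈ tsupport χ, ‖x‖ ≤ r) :
    ∫ x, χ x ^ 2 * B.rho x *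
        ∑ k, pd k (fun y => conv (fun z => h z * B.rho z) φ y * exp (B.V y)) x ^ 2 ≤
      (20 * L ^ 2 + 8 * n * M ^ 2 * ε ^ 2) * ∫ x, h x ^ 2 ∂B.μ := by
  set g := fun z => h z * B.rho z with hgdef
  set a := fun y => conv g φ y * exp (B.V y) with hadef
  set Q := conv (fun y => h y ^ 2 * B.rho y) φ with hQdef
  have hg : LocallyIntegrable g := ho.int_g.locallyIntegrable
  have hgs : ContDiff ℝ 1 (conv g φ) := (contDiff_conv hg hφ.test).of_le (by simp)
  have hev : ContDiff ℝ 1 fun y => exp (B.V y) := (B.smooth.of_le (by norm_num)).exp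
  have ha : ContDiff ℝ 1 a := hgs.mul hev
  have hχ2 : ContDiff ℝ 1 fun x => χ x ^ 2 := (hχ.of_le 1).pow 2
  set η := fun x => χ x ^ 2 * a x with hηdef
  have hη : ContDiff ℝ 1 η := hχ2.mul ha
  have hηc : HasCompactSupport η :=
    (hχ.2.comp_left (g := fun t : ℝ => t ^ 2) (by norm_num)).mul_right
  have pη : ∀ k x, pd k η x = χ x ^ 2 * pd k a x + 2 * χ x * pd k χ x * a x := fun k x => by
    have e : (fun z => χ z ^ 2) = fun z => χ z * χ z := funext fun z => sq _
    rw [hηdef, pd_mul (hχ2.differentiable one_ne_zero x) (ha.differentiable one_ne_zero x), e,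
      pd_mul ((hχ.of_le 1).differentiable one_ne_zero x)
        ((hχ.of_le 1).differentiable one_ne_zero x)]
    ring
  have pa : ∀ k x, B.rho x * pd k a x = pd k (conv g φ) x + pd k B.V x * conv g φ x := by
    intro k x
    have hv : pd k (fun y => exp (B.V y)) x = exp (B.V x) * pd k B.V x := by
      simp [pd, ((B.smooth.differentiable (by norm_num) x).hasFDerivAt.exp).fderiv]
    rw [hadef, pd_mul (hgs.differentiable one_ne_zero x) (hev.differentiable one_ne_zero x), hv, rho]
    have he : exp (-B.V x) * exp (B.V x) = 1 := by rw [← exp_add, neg_add_cancel, exp_zero]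
    linear_combination (pd k (conv g φ) x + pd k B.V x * conv g φ x) * he
  set R := fun k x => conv (fun y => g y * pd k B.V y) φ x - pd k B.V x * conv g φ x with hRdef
  have hflux : ∀ k x, B.flux h φ k x = B.rho x * pd k a x + R k x := fun k x => by
    rw [pa, flux, hRdef]; ring
  have hR : ∀ k x, |R k x| ≤ M * ε * conv (fun y => |g y|) φ x :=
    fun k x => ho.commutator_le hM0 hM hφ k x
  have hQ0 : ∀ x, 0 ≤ Q x := fun x => integral_nonneg fun y =>
    mul_nonneg (mul_nonneg (sq_nonneg _) (B.rho_pos y).le) (hφ.nonneg _)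
  have hpt : ∀ x, χ x ^ 2 * B.rho x * ∑ k, pd k a x ^ 2 ≤
      2 * (∑ k, pd k η x * B.flux h φ k x) +
        (20 * L ^ 2 + 8 * n * M ^ 2 * ε ^ 2) * Q x := by
    intro x
    by_cases hx : x ∈ tsupport χ
    · have hA := ho.weight hφ hε (hχs x hx)
      have hρ := B.rho_pos x
      set A := conv (fun y => |g y|) φ x
      have ha2 : B.rho x * a x ^ 2 ≤ 2 * Q x := by
        have e : B.rho x * a x ^ 2 = conv g φ x ^ 2 / B.rho x := by
          simp only [hadef, mul_pow, rho, exp_neg]
          field_simp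
        rw [e, div_le_iff₀ hρ]
        have := sq_le_sq' (abs_le.1 (abs_conv_le hφ.nonneg x)).1
          (abs_le.1 (abs_conv_le (g := g) hφ.nonneg x)).2
        linarith
      have hR2 : ∀ k, R k x ^ 2 / B.rho x ≤ (M * ε) ^ 2 * (2 * Q x) := by
        intro k
        rw [div_le_iff₀ hρ]
        have := pow_le_pow_left₀ (abs_nonneg _) (hR k x) 2
        rw [sq_abs, mul_pow] at this
        nlinarith [mul_le_mul_of_nonneg_left hA (sq_nonneg (M * ε))]
      have hc : ∑ k, pd k χ x ^ 2 ≤ L ^ 2 := by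
        rw [sum_pd_sq]; exact pow_le_pow_left₀ (norm_nonneg _) (hχd x) 2
      have hs := energy_sum (c := fun k => pd k χ x) (p := fun k => pd k a x)
        (R := fun k => R k x) hρ (hQ0 x) (hχ1 x) ha2 hR2 hc
      simp only [mul_pow] at hs
      simp only [← hflux, ← pη] at hs
      linarith
    · have z1 : χ x = 0 := image_eq_zero_of_notMem_tsupport hx
      have z2 : ∀ k, pd k χ x = 0 := fun k => by rw [pd, fderiv_of_notMem_tsupport ℝ hx]; rfl
      simp only [pη, z1, z2]
      have := hQ0 x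
      simp only [ne_eq, OfNat.ofNat_ne_zero, not_false_eq_true, zero_pow, zero_mul, mul_zero,
        add_zero, Finset.sum_const_zero, zero_add]
      positivity
  have hQ := integral_conv (φ := φ) ho.int_q hφ.test.1.continuous hφ.test.2 hφ.total
  obtain ⟨iF, hzero⟩ := ho.integral_flux hφ.test hη hηc
  have ilc : Continuous fun x => χ x ^ 2 * B.rho x * ∑ k, pd k a x ^ 2 :=
    ((hχ.1.continuous.pow 2).mul B.continuous_rho).mul (continuous_finsetSum _ fun k _ =>
      (continuous_pd ha k).pow 2)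
  have ils : HasCompactSupport fun x => χ x ^ 2 * B.rho x * ∑ k, pd k a x ^ 2 :=
    HasCompactSupport.intro hχ.2 fun x hx => by
      simp [image_eq_zero_of_notMem_tsupport hx]
  have il := ilc.integrable_of_hasCompactSupport (μ := (volume : Measure (E n))) ils
  have iS : Integrable fun x => 2 * (∑ k, pd k η x * B.flux h φ k x) :=
    (integrable_finsetSum _ fun k _ => iF k).const_mul 2
  have iQ : Integrable fun x => (20 * L ^ 2 + 8 * n * M ^ 2 * ε ^ 2) * Q x :=
    hQ.1.const_mul (20 * L ^ 2 + 8 * n * M ^ 2 * ε ^ 2)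
  have iT : Integrable fun x => 2 * (∑ k, pd k η x * B.flux h φ k x) +
      (20 * L ^ 2 + 8 * n * M ^ 2 * ε ^ 2) * Q x := iS.add iQ
  have h1 : ∫ x, χ x ^ 2 * B.rho x * ∑ k, pd k a x ^ 2 ≤
      ∫ x, (2 * (∑ k, pd k η x * B.flux h φ k x) +
        (20 * L ^ 2 + 8 * n * M ^ 2 * ε ^ 2) * Q x) :=
    integral_mono (μ := (volume : Measure (E n))) il iT hpt
  rw [integral_add iS iQ, integral_const_mul, integral_const_mul, hzero, hQ.2, mul_zero,
    zero_add] at h1
  rw [B.integral_μ]
  simp only [mul_comm (B.rho _)]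
  exact h1

/-- Weak derivatives of an orthogonal function vanish. -/
theorem Orth.integral_pd_eq_zero (ho : B.Orth h) {ψ : E n → ℝ} (hψ : Test ψ) (j : Fin n) :
    ∫ x, h x * pd j ψ x = 0 := by
  obtain ⟨M, hM0, hM⟩ := B.pd_V_lipschitz
  set N := ∫ x, h x ^ 2 ∂B.μ
  have hN : 0 ≤ N := integral_nonneg fun x => sq_nonneg _
  have hcd : Continuous fun x => ψ x ^ 2 / B.rho x :=
    (hψ.1.continuous.pow 2).div B.continuous_rho fun x => (B.rho_pos x).ne'
  set P := ∫ x, ψ x ^ 2 / B.rho x
  have hP : 0 ≤ P := integral_nonneg fun x => div_nonneg (sq_nonneg _) (B.rho_pos x).le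
  obtain ⟨r₀, hr₀⟩ := hψ.2.isBounded.subset_closedBall (0 : E n)
  let b : ContDiffBump (0 : E n) := ⟨1, 2, one_pos, one_lt_two⟩
  have hbc : ContDiff ℝ 1 (b : E n → ℝ) := b.contDiff
  obtain ⟨c, hc⟩ := (b.hasCompactSupport.fderiv ℝ).exists_bound_of_continuous
    (hbc.continuous_fderiv one_ne_zero)
  have hc0 : 0 ≤ c := (norm_nonneg _).trans (hc 0)
  refine eq_of_forall_dist_le fun η hη => ?_
  rw [dist_zero_right, Real.norm_eq_abs]
  set k := max (max r₀ 1) (20 * c ^ 2 * N * P * 8 / η ^ 2 + 1) with hkdef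
  have hk1 : 1 ≤ k := (le_max_right r₀ 1).trans (le_max_left _ _)
  have hk0 : 0 < k := by linarith
  set χ := fun x : E n => b (k⁻¹ • x) with hχdef
  have hχT : Test χ := ⟨b.contDiff.comp (contDiff_id.const_smul k⁻¹),
    b.hasCompactSupport.comp_homeomorph (Homeomorph.smulOfNeZero k⁻¹ (inv_ne_zero hk0.ne'))⟩
  have hχd : ∀ x, ‖fderiv ℝ χ x‖ ≤ c / k := fun x => by
    have h1 : HasFDerivAt χ ((fderiv ℝ (b : E n → ℝ) (k⁻¹ • x)).comp
        (k⁻¹ • ContinuousLinearMap.id ℝ (E n))) x :=
      (hbc.differentiable one_ne_zero _).hasFDerivAt.comp x ((hasFDerivAt_id x).const_smul k⁻¹)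
    rw [h1.fderiv, ContinuousLinearMap.comp_smul, ContinuousLinearMap.comp_id, norm_smul,
      Real.norm_eq_abs, abs_of_pos (inv_pos.2 hk0), div_eq_inv_mul]
    exact mul_le_mul_of_nonneg_left (hc _) (inv_nonneg.2 hk0.le)
  have hχ1 : ∀ x, |χ x| ≤ 1 := fun x => by
    rw [abs_of_nonneg (show 0 ≤ χ x from b.nonneg)]; exact b.le_one
  have hχs : ∀ x ∈ tsupport χ, ‖x‖ ≤ 2 * k := by
    intro x hx
    have h1 : x ∈ {y : E n | ‖y‖ ≤ 2 * k} := closure_minimal (fun y hy => ?_)
      (isClosed_le continuous_norm continuous_const) hx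
    · exact h1
    · have : k⁻¹ • y ∈ Function.support (b : E n → ℝ) := hy
      rw [b.support_eq, mem_ball_zero_iff, norm_smul, Real.norm_eq_abs,
        abs_of_pos (inv_pos.2 hk0), inv_mul_eq_div, div_lt_iff₀ hk0] at this
      exact this.le
  obtain ⟨ε₁, hε₁, hratio⟩ := B.rho_ratio (r := 2 * k) (by linarith)
  have hθc : Continuous fun x => exp (B.V x) * pd j ψ x :=
    (continuous_exp.comp B.continuous_V).mul (hψ.pd j).1.continuous
  obtain ⟨ε₂, hε₂, -, happ⟩ := approx ho.int_g.locallyIntegrable hθc (hψ.pd j).2.mul_left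
    (half_pos hη)
  set ε := min (min ε₁ ε₂) (η / (√(8 * n * M ^ 2 * N * P * 8) + 1)) with hεdef
  have hεpos : 0 < ε := lt_min (lt_min hε₁ hε₂) (by positivity)
  obtain ⟨φ, hφ⟩ := exists_moll (n := n) hεpos
  set g := fun z => h z * B.rho z
  set a := fun y => conv g φ y * exp (B.V y) with hadef
  have hgs : ContDiff ℝ 1 (conv g φ) :=
    (contDiff_conv ho.int_g.locallyIntegrable hφ.test).of_le (by simp)
  have ha : ContDiff ℝ 1 a := hgs.mul ((B.smooth.of_le (by norm_num)).exp)
  have hap := happ ε ((min_le_left _ _).trans (min_le_right _ _)) φ hφ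
  have e1 : ∫ x, h x * pd j ψ x = ∫ x, g x * (exp (B.V x) * pd j ψ x) :=
    integral_congr_ae (.of_forall fun x => by
      show _ = h x * B.rho x * _
      rw [rho, mul_assoc (h x), ← mul_assoc (exp (-B.V x)), ← exp_add, neg_add_cancel, exp_zero,
        one_mul])
  have e2 : ∫ x, conv g φ x * (exp (B.V x) * pd j ψ x) = -∫ x, pd j a x * ψ x := by
    rw [← integral_mul_pd ha (hψ.of_le 1) hψ.2 j]
    exact integral_congr_ae (.of_forall fun x => by simp only [hadef]; ring)
  rw [e2, ← e1] at hap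
  have hχψ : ∀ x, pd j a x * ψ x =
      (χ x * √(B.rho x) * pd j a x) * (ψ x / √(B.rho x)) := fun x => by
    by_cases hx : ψ x = 0
    · simp [hx]
    · have hxk : ‖x‖ ≤ k := by
        have := hr₀ (subset_tsupport _ hx)
        rw [mem_closedBall_zero_iff] at this
        exact this.trans ((le_max_left r₀ 1).trans (le_max_left _ _))
      have : χ x = 1 := b.one_of_mem_closedBall (by
        rw [mem_closedBall_zero_iff, norm_smul, Real.norm_eq_abs, abs_of_pos (inv_pos.2 hk0),
          inv_mul_eq_div, div_le_iff₀ hk0, one_mul]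
        exact hxk)
      have hs : √(B.rho x) ≠ 0 := (sqrt_pos.2 (B.rho_pos x)).ne'
      rw [this]; field_simp
  have hsq : ∀ x, (χ x * √(B.rho x) * pd j a x) ^ 2 = χ x ^ 2 * B.rho x * pd j a x ^ 2 :=
    fun x => by rw [mul_pow, mul_pow, sq_sqrt (B.rho_pos x).le]
  have hsq' : ∀ x, (ψ x / √(B.rho x)) ^ 2 = ψ x ^ 2 / B.rho x := fun x => by
    rw [div_pow, sq_sqrt (B.rho_pos x).le]
  have hχ2c : HasCompactSupport fun x => χ x ^ 2 :=
    hχT.2.comp_left (g := fun t : ℝ => t ^ 2) (by norm_num)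
  have ij : Integrable fun x => χ x ^ 2 * B.rho x * pd j a x ^ 2 :=
    (((hχT.1.continuous.pow 2).mul B.continuous_rho).mul
      ((continuous_pd ha j).pow 2)).integrable_of_hasCompactSupport hχ2c.mul_right.mul_right
  have iψ : Integrable fun x => ψ x ^ 2 / B.rho x := hcd.integrable_of_hasCompactSupport
    (HasCompactSupport.intro hψ.2 fun x hx => by
      rw [image_eq_zero_of_notMem_tsupport hx]; simp)
  have iψa : Integrable fun x => pd j a x * ψ x :=
    ((continuous_pd ha j).mul hψ.1.continuous).integrable_of_hasCompactSupport hψ.2.mul_left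
  have hcs := sq_integral_mul_le (ν := (volume : Measure (E n)))
    (a := fun x => χ x * √(B.rho x) * pd j a x) (b := fun x => ψ x / √(B.rho x))
    (by simpa only [hsq] using ij) (by simpa only [hsq'] using iψ)
    (by simpa only [← hχψ] using iψa)
  simp only [hsq, hsq', ← hχψ] at hcs
  have hen : ∫ x, χ x ^ 2 * B.rho x * pd j a x ^ 2 ≤
      (20 * (c / k) ^ 2 + 8 * n * M ^ 2 * ε ^ 2) * N := by
    refine le_trans ?_ (ho.energy hM0 hM hεpos.le hφ (fun x y hx hxy =>
      hratio x y hx (hxy.trans_le ((min_le_left _ _).trans (min_le_left _ _)))) hχT hχ1 hχd hχs)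
    refine integral_mono ij ?_ fun x => ?_
    · exact (((hχT.1.continuous.pow 2).mul B.continuous_rho).mul (continuous_finsetSum _ fun i _ =>
        (continuous_pd ha i).pow 2)).integrable_of_hasCompactSupport hχ2c.mul_right.mul_right
    · exact mul_le_mul_of_nonneg_left (Finset.single_le_sum (f := fun i => pd i a x ^ 2)
        (fun i _ => sq_nonneg _) (Finset.mem_univ j)) (mul_nonneg (sq_nonneg _) (B.rho_pos x).le)
  have hA : 20 * (c / k) ^ 2 * N * P ≤ η ^ 2 / 8 := by
    have h1 : 20 * c ^ 2 * N * P * 8 / η ^ 2 ≤ k ^ 2 :=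
      (le_add_of_nonneg_right zero_le_one).trans
        ((le_max_right _ _).trans (le_self_pow₀ hk1 two_ne_zero))
    rw [div_le_iff₀ (by positivity)] at h1
    rw [show 20 * (c / k) ^ 2 * N * P = 20 * c ^ 2 * N * P / k ^ 2 by ring,
      div_le_iff₀ (by positivity)]
    linarith
  have hB : 8 * n * M ^ 2 * ε ^ 2 * N * P ≤ η ^ 2 / 8 := by
    have h0 : 0 ≤ 8 * n * M ^ 2 * N * P * 8 := by positivity
    have h1 : ε * (√(8 * n * M ^ 2 * N * P * 8) + 1) ≤ η :=
      (le_div_iff₀ (by positivity)).1 (min_le_right _ _)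
    have h2 : ε * √(8 * n * M ^ 2 * N * P * 8) ≤ η := by
      rw [mul_add, mul_one] at h1; linarith
    have h3 := pow_le_pow_left₀ (mul_nonneg hεpos.le (sqrt_nonneg _)) h2 2
    rw [mul_pow, sq_sqrt h0] at h3
    linarith
  have hI : (∫ x, pd j a x * ψ x) ^ 2 ≤ (η / 2) ^ 2 := by
    refine hcs.trans ((mul_le_mul_of_nonneg_right hen hP).trans ?_)
    linarith [show (η / 2) ^ 2 = η ^ 2 / 4 by ring]
  have hI' := abs_le_of_sq_le_sq hI (by linarith)
  rw [abs_le] at hap hI' ⊢
  constructor <;> linarith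

/-- An orthogonal function is a constant. -/
theorem Orth.ae_const (ho : B.Orth h) : ∃ c : ℝ, ∀ᵐ x, h x = c := by
  have hl := ho.locInt
  have hconst : ∀ {ε : ℝ} {φ : E n → ℝ}, Moll ε φ → ∀ x, conv h φ x = conv h φ 0 := by
    intro ε φ hφ x
    have hd := (contDiff_conv hl hφ.test).differentiable (by simp)
    refine is_const_of_fderiv_eq_zero hd (fun z => ?_) x 0
    have h0 : ∀ j, fderiv ℝ (conv h φ) z (ei j) = 0 := fun j => by
      change pd j (conv h φ) z = 0
      rw [pd_conv hl hφ.test j z]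
      have := ho.integral_pd_eq_zero (ψ := fun y => φ (z - y))
        ⟨hφ.test.1.comp (contDiff_const.sub contDiff_id),
          hφ.test.2.comp_homeomorph (Homeomorph.subLeft z)⟩ j
      simp only [pd_subLeft (hφ.test.of_le 1), mul_neg, integral_neg, neg_eq_zero] at this
      exact this
    have h1 := sum_clm_sq (fderiv ℝ (conv h φ) z)
    simp only [h0, ne_eq, OfNat.ofNat_ne_zero, not_false_eq_true, zero_pow,
      Finset.sum_const_zero] at h1
    exact norm_eq_zero.1 (pow_eq_zero_iff two_ne_zero |>.1 h1.symm)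
  obtain ⟨θ₀, hθ₀⟩ := exists_moll (n := n) one_pos
  refine ⟨∫ x, h x * θ₀ x, ?_⟩
  set c := ∫ x, h x * θ₀ x
  have hz := ae_eq_zero_of_integral_contDiff_smul_eq_zero (μ := (volume : Measure (E n)))
    (hl.sub (locallyIntegrable_const c)) fun θ hθ hθc => ?_
  · filter_upwards [hz] with x hx
    exact sub_eq_zero.1 hx
  · have i1 : Integrable fun x => h x * θ x :=
      hl.integrable_smul_right_of_hasCompactSupport hθ.continuous hθc
    have i2 : Integrable θ := hθ.continuous.integrable_of_hasCompactSupport hθc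
    have e : ∫ x, θ x • (h x - c) = (∫ x, h x * θ x) - c * ∫ x, θ x := by
      rw [← integral_const_mul, ← integral_sub i1 (i2.const_mul c)]
      exact integral_congr_ae (.of_forall fun x => by simp; ring)
    simp only [Pi.sub_apply]
    rw [e]
    refine eq_of_forall_dist_le fun δ hδ => ?_
    rw [dist_zero_right, Real.norm_eq_abs]
    set I := |∫ x, θ x| with hI
    have hI0 : 0 ≤ I := abs_nonneg _
    obtain ⟨e₁, he₁, -, A1⟩ := approx hl hθ.continuous hθc (half_pos hδ)
    obtain ⟨e₂, he₂, -, A2⟩ := approx hl hθ₀.test.1.continuous hθ₀.test.2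
      (show (0 : ℝ) < δ / 2 / (I + 1) by positivity)
    obtain ⟨φ, hφ⟩ := exists_moll (n := n) (lt_min he₁ he₂)
    have a1 := A1 _ (min_le_left _ _) φ hφ
    have a2 := A2 _ (min_le_right _ _) φ hφ
    simp only [hconst hφ, integral_const_mul, hθ₀.total, mul_one] at a1 a2
    set d := conv h φ 0
    have h3 : |(d - c) * ∫ x, θ x| ≤ δ / 2 := by
      rw [abs_mul]
      calc |d - c| * I ≤ δ / 2 / (I + 1) * I := mul_le_mul_of_nonneg_right a2 hI0
        _ ≤ δ / 2 := by rw [div_mul_eq_mul_div, div_le_iff₀ (by linarith)]; nlinarith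
    calc |(∫ x, h x * θ x) - c * ∫ x, θ x|
        = |-(d * (∫ x, θ x) - ∫ x, h x * θ x) + (d - c) * ∫ x, θ x| := by congr 1; ring
      _ ≤ δ := by
          refine (abs_add_le _ _).trans ?_
          rw [abs_neg]; linarith

end Base

end Vale.Agent.P245.Local
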