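import Vale.Agent.P245.Local.Lich.Calc

/-!
# P245: mollification
-/

open MeasureTheory Real Set Filter Metric
open scoped RealInnerProductSpace ENNReal Topology ContDiff Convolution

noncomputable section

namespace Vale.Agent.P245.Local

variable {n : ℕ}

/-- Convolution of `g` with a kernel. -/
def conv (g φ : E n → ℝ) (x : E n) : ℝ := ∫ y, g y * φ (x - y)

theorem conv_eq (g φ : E n → ℝ) :
    conv g φ = g ⋆[ContinuousLinearMap.mul ℝ ℝ, volume] φ := rfl

theorem contDiff_conv {g φ : E n → ℝ} (hg : LocallyIntegrable g) (hφ : Test φ) :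
    ContDiff ℝ ∞ (conv g φ) := by
  rw [conv_eq]
  exact hφ.2.contDiff_convolution_right _ hg hφ.1

theorem pd_conv {g φ : E n → ℝ} (hg : LocallyIntegrable g) (hφ : Test φ) (k : Fin n) (x : E n) :
    pd k (conv g φ) x = conv g (pd k φ) x := by
  rw [pd, conv_eq, (hφ.2.hasFDerivAt_convolution_right _ hg (hφ.of_le 1) x).fderiv,
    convolution_precompR_apply _ hg (hφ.2.fderiv ℝ) ((hφ.of_le 1).continuous_fderiv one_ne_zero)]
  rfl

/-- A mollifier of radius `ε`. -/
structure Moll (ε : ℝ) (φ : E n → ℝ) : Prop where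
  test : Test φ
  nonneg : ∀ x, 0 ≤ φ x
  total : ∫ x, φ x = 1
  small : ∀ x, φ x ≠ 0 → ‖x‖ < ε

theorem exists_moll {ε : ℝ} (hε : 0 < ε) : ∃ φ : E n → ℝ, Moll ε φ := by
  let b : ContDiffBump (0 : E n) := ⟨ε / 2, ε, by linarith, by linarith⟩
  refine ⟨b.normed volume, ⟨b.contDiff_normed, b.hasCompactSupport_normed⟩, b.nonneg_normed,
    b.integral_normed, fun x hx => ?_⟩
  have : x ∈ Function.support (b.normed volume) := hx
  rw [b.support_normed_eq, mem_ball_zero_iff] at this
  exact this

theorem Moll.mono {ε ε' : ℝ} {φ : E n → ℝ} (h : Moll ε φ) (hε : ε ≤ ε') : Moll ε' φ :=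
  ⟨h.test, h.nonneg, h.total, fun x hx => (h.small x hx).trans_le hε⟩

theorem integrable_conv_term {g φ : E n → ℝ} (hg : LocallyIntegrable g) (hφ : Continuous φ)
    (hc : HasCompactSupport φ) (x : E n) : Integrable fun y => g y * φ (x - y) :=
  hg.integrable_smul_right_of_hasCompactSupport (by fun_prop : Continuous fun y => φ (x - y))
    (hc.comp_homeomorph (Homeomorph.subLeft x))

theorem abs_conv_le {g φ : E n → ℝ} (h0 : ∀ x, 0 ≤ φ x) (x : E n) :
    |conv g φ x| ≤ conv (fun y => |g y|) φ x := by
  refine abs_integral_le_integral_abs.trans_eq ?_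
  simp only [abs_mul, abs_of_nonneg (h0 _), conv]

/-- The mean of a mollification. -/
theorem integral_conv {g φ : E n → ℝ} (hg : Integrable g) (hφ : Continuous φ)
    (hc : HasCompactSupport φ) (h1 : ∫ x, φ x = 1) :
    Integrable (conv g φ) ∧ ∫ x, conv g φ x = ∫ x, g x := by
  have hφi : Integrable φ := hφ.integrable_of_hasCompactSupport hc
  refine ⟨?_, ?_⟩
  · rw [conv_eq]; exact hg.integrable_convolution _ hφi
  · rw [conv_eq, integral_convolution _ hg hφi, ContinuousLinearMap.mul_apply', h1, mul_one]

/-- Mollification converges weakly. -/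
theorem approx {g θ : E n → ℝ} (hg : LocallyIntegrable g) (hθ : Continuous θ)
    (hθc : HasCompactSupport θ) {δ : ℝ} (hδ : 0 < δ) :
    ∃ ε₀ : ℝ, 0 < ε₀ ∧ ε₀ ≤ 1 ∧ ∀ ε ≤ ε₀, ∀ φ : E n → ℝ, Moll ε φ →
      |(∫ x, conv g φ x * θ x) - ∫ x, g x * θ x| ≤ δ := by
  set K := cthickening 1 (tsupport θ) with hK
  have hKc : IsCompact K := hθc.cthickening
  set G := K.indicator g with hG
  have hGi : Integrable G := (hg.integrableOn_isCompact hKc).integrable_indicator hKc.measurableSet
  set A := ∫ y, |G y| with hA
  have hA0 : 0 ≤ A := integral_nonneg fun y => abs_nonneg _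
  obtain ⟨ε₁, hε₁, hu⟩ := Metric.uniformContinuous_iff.1
    (hθc.uniformContinuous_of_continuous hθ) (δ / (A + 1)) (by positivity)
  refine ⟨min ε₁ 1, lt_min hε₁ one_pos, min_le_right _ _, fun ε hε φ hφ => ?_⟩
  have hε' : ε ≤ ε₁ ∧ ε ≤ 1 := le_min_iff.1 hε
  have hφc : Continuous φ := hφ.test.1.continuous
  have inK : ∀ x y, φ (x - y) ≠ 0 → θ x ≠ 0 → y ∈ K := fun x y h h' =>
    mem_cthickening_of_dist_le y x 1 (tsupport θ) (subset_tsupport _ h') (by
      rw [dist_eq_norm, norm_sub_rev]; exact ((hφ.small _ h).le).trans hε'.2)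
  have e1 : ∀ x y, g y * φ (x - y) * θ x = G y * (φ (x - y) * θ x) := fun x y => by
    by_cases h : φ (x - y) = 0
    · simp [h]
    by_cases h' : θ x = 0
    · simp [h']
    rw [hG, indicator_of_mem (inK x y h h'), mul_assoc]
  have e2 : ∀ y, g y * θ y = G y * θ y := fun y => by
    by_cases h' : θ y = 0
    · simp [h']
    rw [hG, indicator_of_mem (self_subset_cthickening _ (subset_tsupport _ h'))]
  obtain ⟨Cφ, hCφ⟩ := hφ.test.2.exists_bound_of_continuous hφc
  have hint : Integrable (fun p : E n × E n => G p.2 * (φ (p.1 - p.2) * θ p.1))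
      (volume.prod volume) := by
    have h := (((hθ.integrable_of_hasCompactSupport hθc).norm.mul_prod hGi.norm).const_mul Cφ :
      Integrable (fun p : E n × E n => Cφ * (‖θ p.1‖ * ‖G p.2‖)) (volume.prod volume))
    refine h.mono' (hGi.aestronglyMeasurable.comp_snd.mul
      ((by fun_prop : Continuous fun p : E n × E n => φ (p.1 - p.2) * θ p.1)).aestronglyMeasurable)
      (.of_forall fun p => ?_)
    simp only [norm_mul]
    nlinarith [mul_le_mul_of_nonneg_right (hCφ (p.1 - p.2))
      (mul_nonneg (norm_nonneg (θ p.1)) (norm_nonneg (G p.2)))]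
  have lhs : ∫ x, conv g φ x * θ x = ∫ y, G y * ∫ x, φ (x - y) * θ x := by
    simp only [conv, ← integral_mul_const, e1]
    rw [integral_integral_swap hint]
    simp only [integral_const_mul]
  have hi1 : Integrable fun y => G y * ∫ x, φ (x - y) * θ x := by
    have := hint.integral_prod_right
    simpa [integral_const_mul] using this
  have hi2 : Integrable fun y => G y * θ y := by
    obtain ⟨Cθ, hCθ⟩ := hθc.exists_bound_of_continuous hθ
    exact hGi.mul_bdd hθ.aestronglyMeasurable (.of_forall hCθ)
  rw [lhs, integral_congr_ae (.of_forall e2), ← integral_sub hi1 hi2]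
  refine abs_integral_le_integral_abs.trans ?_
  calc ∫ y, |G y * (∫ x, φ (x - y) * θ x) - G y * θ y|
      ≤ ∫ y, |G y| * (δ / (A + 1)) := by
        refine integral_mono (hi1.sub hi2).abs (hGi.abs.mul_const _) fun y => ?_
        simp only [← mul_sub, abs_mul]
        refine mul_le_mul_of_nonneg_left ?_ (abs_nonneg _)
        have hφy : ∫ x, φ (x - y) = 1 := by rw [integral_sub_right_eq_self φ y, hφ.total]
        have i1 : Integrable fun x => φ (x - y) * θ x :=
          (by fun_prop : Continuous fun x => φ (x - y) * θ x).integrable_of_hasCompactSupport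
            hθc.mul_left
        have i2 : Integrable fun x => φ (x - y) :=
          (hφc.integrable_of_hasCompactSupport hφ.test.2).comp_sub_right y
        have e3 : (∫ x, φ (x - y) * θ x) - θ y = ∫ x, φ (x - y) * (θ x - θ y) := by
          simp only [mul_sub]
          rw [integral_sub i1 (i2.mul_const _), integral_mul_const, hφy, one_mul]
        rw [e3]
        have i3 : Integrable fun x => φ (x - y) * (θ x - θ y) := by
          simp only [mul_sub]
          exact i1.sub (i2.mul_const (θ y))
        calc |∫ x, φ (x - y) * (θ x - θ y)| ≤ ∫ x, |φ (x - y) * (θ x - θ y)| :=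
              abs_integral_le_integral_abs
          _ ≤ ∫ x, φ (x - y) * (δ / (A + 1)) := by
              refine integral_mono i3.abs (i2.mul_const _) fun x => ?_
              simp only [abs_mul, abs_of_nonneg (hφ.nonneg _)]
              rcases eq_or_ne (φ (x - y)) 0 with h | h
              · simp [h]
              refine mul_le_mul_of_nonneg_left (le_of_lt ?_) (hφ.nonneg _)
              rw [← Real.dist_eq]
              exact hu (by rw [dist_eq_norm]; exact (hφ.small _ h).trans_le hε'.1)
          _ = _ := by rw [integral_mul_const, hφy, one_mul]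
    _ = A * (δ / (A + 1)) := by rw [integral_mul_const]
    _ ≤ δ := by
        rw [mul_div_assoc', div_le_iff₀ (by linarith)]
        nlinarith

end Vale.Agent.P245.Local
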